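import Vale.Agent.P272.K.QN.H527.Mat
import Mathlib.Analysis.Matrix.Order

/-!
# P281, project T-HK (helper842): the density `σ ∧ conj σ ∧ ω^(d-2)`, pointwise
-/

open Set Filter Metric Matrix
open scoped ComplexConjugate ComplexOrder

noncomputable section

namespace Vale.Agent.P281.H842.HK

variable {d : ℕ}

/-- the density of `σ ∧ conj σ ∧ ω^(d-2)` (up to a constant), for the metric `w` and the `(2,0)`-form
`s` -/
def nd (w s : Matrix (Fin d) (Fin d) ℂ) : ℂ := w.det * (w⁻¹ * s * (w⁻¹)ᵀ * sᴴ).trace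

theorem exists_factor {w : Matrix (Fin d) (Fin d) ℂ} (hw : w.PosDef) :
    ∃ B : Matrix (Fin d) (Fin d) ℂ, w⁻¹ = B * Bᴴ := by
  obtain ⟨A, hA⟩ := Vale.Agent.P272.K.C2.exists_factor hw.inv.posSemidef
  exact ⟨Aᴴ, by rw [conjTranspose_conjTranspose]; exact hA⟩

/-- the trace is the square of a norm -/
theorem trace_eq {w s B : Matrix (Fin d) (Fin d) ℂ} (hB : w⁻¹ = B * Bᴴ) :
    (w⁻¹ * s * (w⁻¹)ᵀ * sᴴ).trace = ((Bᴴ * s * Bᴴᵀ) * (Bᴴ * s * Bᴴᵀ)ᴴ).trace := by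
  rw [hB, transpose_mul, conjTranspose_mul, conjTranspose_mul, conjTranspose_conjTranspose]
  have h1 : (Bᴴᵀ)ᴴ = Bᵀ := by
    ext i j
    simp [conjTranspose_apply, transpose_apply]
  rw [h1]
  have h2 : B * Bᴴ * s * (Bᴴᵀ * Bᵀ) * sᴴ = B * (Bᴴ * s * Bᴴᵀ * (Bᵀ * sᴴ)) := by
    simp only [Matrix.mul_assoc]
  rw [h2, trace_mul_comm]
  congr 1
  simp only [Matrix.mul_assoc]

theorem nd_im {w s : Matrix (Fin d) (Fin d) ℂ} (hw : w.PosDef) : (nd w s).im = 0 := by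
  obtain ⟨B, hB⟩ := exists_factor hw
  have h1 : (w.det).im = 0 := (Complex.pos_iff.1 hw.det_pos).2.symm
  have h2 : 0 ≤ (w⁻¹ * s * (w⁻¹)ᵀ * sᴴ).trace := by
    rw [trace_eq hB]
    exact (posSemidef_self_mul_conjTranspose _).trace_nonneg
  have h3 := (Complex.nonneg_iff.1 h2).2
  unfold nd
  rw [Complex.mul_im, h1, ← h3]
  ring

theorem nd_nonneg {w s : Matrix (Fin d) (Fin d) ℂ} (hw : w.PosDef) : 0 ≤ (nd w s).re := by
  obtain ⟨B, hB⟩ := exists_factor hw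
  have h1 := Complex.pos_iff.1 hw.det_pos
  have h2 : 0 ≤ (w⁻¹ * s * (w⁻¹)ᵀ * sᴴ).trace := by
    rw [trace_eq hB]
    exact (posSemidef_self_mul_conjTranspose _).trace_nonneg
  have h3 := Complex.nonneg_iff.1 h2
  unfold nd
  rw [Complex.mul_re, ← h1.2, zero_mul, sub_zero]
  exact mul_nonneg h1.1.le h3.1

/-- **AM-GM**: `|σ|^2 ≥ d (|det σ| / det ω)^(2/d)` -/
theorem amgm_nd (hd : 1 ≤ d) {w s : Matrix (Fin d) (Fin d) ℂ} (hw : w.PosDef) :
    (d : ℝ) * (‖s.det‖ ^ 2 / w.det.re ^ 2) ^ (1 / (d : ℝ)) * w.det.re ≤ (nd w s).re := by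
  obtain ⟨B, hB⟩ := exists_factor hw
  have h1 := Complex.pos_iff.1 hw.det_pos
  set X := Bᴴ * s * Bᴴᵀ with hX
  have h2 := Vale.Agent.P272.K.QN.amgm_psd hd (posSemidef_self_mul_conjTranspose X)
  have h3 : (X * Xᴴ).det.re = ‖s.det‖ ^ 2 / w.det.re ^ 2 := by
    rw [det_mul, det_conjTranspose]
    have h4 : X.det * star X.det = ((‖X.det‖ ^ 2 : ℝ) : ℂ) := by
      rw [Complex.star_def, Complex.mul_conj, Complex.normSq_eq_norm_sq]
    rw [h4, Complex.ofReal_re, hX, det_mul, det_mul, det_transpose, det_conjTranspose, norm_mul,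
      norm_mul, norm_star]
    have h5 : ‖w.det‖ = w.det.re := by
      rw [show w.det = ((w.det.re : ℝ) : ℂ) from Complex.ext rfl (by simpa using h1.2.symm)]
      rw [Complex.norm_real, Complex.ofReal_re, Real.norm_eq_abs, abs_of_pos h1.1]
    have h6 : ‖B.det‖ * ‖B.det‖ = (w.det.re)⁻¹ := by
      have h7 := congrArg Matrix.det hB
      rw [det_nonsing_inv, det_mul, det_conjTranspose, Ring.inverse_eq_inv'] at h7
      have h8 := congrArg norm h7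
      rw [norm_inv, h5, norm_mul, norm_star] at h8
      exact h8.symm
    have h9 : (‖B.det‖ * ‖s.det‖ * ‖B.det‖) ^ 2 = ‖s.det‖ ^ 2 * (‖B.det‖ * ‖B.det‖) ^ 2 := by ring
    rw [h9, h6, inv_pow, div_eq_mul_inv]
  rw [h3] at h2
  unfold nd
  rw [Complex.mul_re, ← h1.2, zero_mul, sub_zero, trace_eq hB, mul_comm w.det.re]
  exact mul_le_mul_of_nonneg_right h2 h1.1.le

/-- the form which is used: if `det ω ≥ c |det σ|` then `|σ|^2 det ω ≥ d c^(1 - 2/d) |det σ|` -/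
theorem nd_ge (hd : 2 ≤ d) {w s : Matrix (Fin d) (Fin d) ℂ} (hw : w.PosDef) {c : ℝ} (hc : 0 < c)
    (h : c * ‖s.det‖ ≤ w.det.re) :
    (d : ℝ) * c ^ (1 - 2 / (d : ℝ)) * ‖s.det‖ ≤ (nd w s).re := by
  have hd0 : (0 : ℝ) < d := by exact_mod_cast (by omega : 0 < d)
  have hd2 : (2 : ℝ) ≤ d := by exact_mod_cast hd
  rcases eq_or_lt_of_le (norm_nonneg s.det) with h0 | h0
  · rw [← h0, mul_zero]
    exact nd_nonneg hw
  have h1 := (Complex.pos_iff.1 hw.det_pos).1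
  refine le_trans ?_ (amgm_nd (by omega) hw)
  set D := w.det.re with hD
  set N := ‖s.det‖ with hN
  rw [mul_assoc, mul_assoc]
  refine mul_le_mul_of_nonneg_left ?_ hd0.le
  have e1 : (N ^ 2 / D ^ 2) ^ (1 / (d : ℝ)) = N ^ (2 / (d : ℝ)) / D ^ (2 / (d : ℝ)) := by
    rw [Real.div_rpow (by positivity) (by positivity), ← Real.rpow_natCast N,
      ← Real.rpow_natCast D, ← Real.rpow_mul h0.le, ← Real.rpow_mul h1.le]
    norm_num
    ring_nf
  have e2 : (N ^ 2 / D ^ 2) ^ (1 / (d : ℝ)) * D = N ^ (2 / (d : ℝ)) * D ^ (1 - 2 / (d : ℝ)) := by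
    rw [e1, Real.rpow_sub h1, Real.rpow_one]
    field_simp
  rw [e2]
  have hexp : 0 ≤ 1 - 2 / (d : ℝ) := by
    rw [sub_nonneg, div_le_one hd0]
    exact hd2
  have e3 : (c * N) ^ (1 - 2 / (d : ℝ)) ≤ D ^ (1 - 2 / (d : ℝ)) :=
    Real.rpow_le_rpow (by positivity) h hexp
  have e4 : c ^ (1 - 2 / (d : ℝ)) * N = N ^ (2 / (d : ℝ)) * (c * N) ^ (1 - 2 / (d : ℝ)) := by
    rw [Real.mul_rpow hc.le h0.le, Real.rpow_sub h0, Real.rpow_one]
    have : N ^ (2 / (d : ℝ)) ≠ 0 := (Real.rpow_pos_of_pos h0 _).ne'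
    field_simp
  rw [e4]
  exact mul_le_mul_of_nonneg_left e3 (by positivity)

end Vale.Agent.P281.H842.HK
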