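import Vale.Agent.P281.H842.HK.YauS

/-!
# P281, project T-HK (helper842): `d^d (∫ |det σ|)^2 (∫ ω^d)^(d-2) ≤ (∫ |σ|^2 ω^d)^d`
-/

open Set Filter Metric MeasureTheory Vale.Agent.P272.K
open scoped Topology ContDiff ComplexConjugate ComplexOrder Manifold Matrix

set_option linter.unusedSectionVars false
set_option linter.style.haveILetI false

noncomputable section

namespace Vale.Agent.P281.H842.HK

open Vale.Agent.P281.H64.TK Vale.Agent.P281.H842.TS

variable {d : ℕ} {E Γ : Type} [TopologicalSpace E] [Group Γ] [Subsingleton Γ] [MulAction Γ E]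
  {S : Sheets d E Γ} {w s : Fin S.N → Cm d → Matrix (Fin d) (Fin d) ℂ}

/-! ### Functions on `E` -/

/-- the function on `E` given by functions on the sheets -/
def gl (S : Sheets d E Γ) (G : Fin S.N → Cm d → ℝ) (e : E) : ℝ :=
  G (exists_ph S e).choose ((ph S (exists_ph S e).choose).symm e)

theorem gl_eq {G : Fin S.N → Cm d → ℝ} (hG : ∀ i j, ∀ z ∈ UU S i j, G i z = G j (tt S i j z))
    (i : Fin S.N) {z : Cm d} (hz : z ∈ ball (0 : Cm d) 3) : gl S G (S.σ i z) = G i z := by
  obtain ⟨v, hv, he⟩ := (exists_ph S (S.σ i z)).choose_spec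
  have hU : z ∈ UU S i (exists_ph S (S.σ i z)).choose := mem_UU hz hv he.symm
  have h1 : (ph S (exists_ph S (S.σ i z)).choose).symm (S.σ i z) =
      tt S i (exists_ph S (S.σ i z)).choose z := by
    have h2 := (tt_spec hU).2
    have h3 := ph_symm S (exists_ph S (S.σ i z)).choose (tt_spec hU).1
    rw [← h2] at h3
    exact h3
  rw [gl, h1, hG i _ z hU]

theorem gl_smo {G : Fin S.N → Cm d → ℝ} (hG : ∀ i j, ∀ z ∈ UU S i j, G i z = G j (tt S i j z))
    (hs : ∀ i, ∀ z ∈ ball (0 : Cm d) 3, ContDiffAt ℝ ∞ (G i) z) : Smo S (gl S G) := by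
  intro i z hz
  refine (hs i z hz).congr_of_eventuallyEq ?_
  filter_upwards [isOpen_ball.mem_nhds hz] with u hu
  exact gl_eq hG i hu

/-! ### The change of sheets -/

/-- the rule for a change of sheets of a `(2,0)`-form -/
def Is2 (S : Sheets d E Γ) (s : Fin S.N → Cm d → Matrix (Fin d) (Fin d) ℂ) : Prop :=
  ∀ i j, ∀ z ∈ UU S i j, s i z = (jac (tt S i j) z)ᵀ * s j (tt S i j z) * jac (tt S i j) z

theorem det_s (hs : Is2 S s) {i j : Fin S.N} {z : Cm d} (hz : z ∈ UU S i j) :
    ‖(s i z).det‖ = ‖(s j (tt S i j z)).det‖ * ‖(jac (tt S i j) z).det‖ ^ 2 := by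
  rw [hs i j z hz, Matrix.det_mul, Matrix.det_mul, Matrix.det_transpose, norm_mul, norm_mul]
  ring

theorem det_w (hw : Kah S w) {i j : Fin S.N} {z : Cm d} (hz : z ∈ UU S i j) :
    (w i z).det.re = (w j (tt S i j z)).det.re * ‖(jac (tt S i j) z).det‖ ^ 2 := by
  have h1 := hw.change i j z hz.1 _ (tt_spec hz).1 1 _ (tt_an hz) rfl
    ((tt_sig hz).mono fun u hu => by rw [one_smul, hu])
  have h2 : ((jac (tt S i j) z).map conj).det = conj (jac (tt S i j) z).det :=
    (RingHom.map_det (starRingEnd ℂ) (jac (tt S i j) z)).symm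
  rw [h1, Matrix.det_mul, Matrix.det_mul, Matrix.det_transpose, h2]
  have h3 : (jac (tt S i j) z).det * (w j (tt S i j z)).det * conj (jac (tt S i j) z).det =
      ((‖(jac (tt S i j) z).det‖ ^ 2 : ℝ) : ℂ) * (w j (tt S i j z)).det := by
    rw [← Complex.normSq_eq_norm_sq, ← Complex.mul_conj]
    ring
  rw [h3, Complex.re_ofReal_mul, mul_comm]

theorem jac_ne {i j : Fin S.N} {z : Cm d} (hz : z ∈ UU S i j) : (jac (tt S i j) z).det ≠ 0 := by
  have h1 := jac_trans hz (tt_symm hz).1
  rw [jac_self hz.1] at h1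
  intro h0
  have h2 := congrArg Matrix.det h1
  rw [Matrix.det_one, Matrix.det_mul, h0, mul_zero] at h2
  exact one_ne_zero h2

theorem det_pos (hw : Kah S w) (i : Fin S.N) {z : Cm d} (hz : z ∈ ball (0 : Cm d) 3) :
    0 < (w i z).det.re := (Complex.pos_iff.1 (hw.posDef i z hz).det_pos).1

/-! ### Integrals -/

/-- the integral of a real density -/
def rint (S : Sheets d E Γ) (D : Fin S.N → Cm d → ℝ) : ℝ := ∑ i, ∫ z in S.P i, D i z

variable [ContinuousConstSMul Γ E]

theorem rint_mono {D D' : Fin S.N → Cm d → ℝ} (hD : ∀ i, ContinuousOn (D i) (ball 0 3))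
    (hD' : ∀ i, ContinuousOn (D' i) (ball 0 3))
    (h : ∀ i, ∀ z ∈ ball (0 : Cm d) 3, D i z ≤ D' i z) : rint S D ≤ rint S D' := by
  refine Finset.sum_le_sum fun i _ => ?_
  exact setIntegral_mono_on (H864.K.integrableOn_P S i (hD i)) (H864.K.integrableOn_P S i (hD' i))
    (H864.K.meas_P S i) fun z hz => h i z (H864.K.P_subset3 S i hz)

theorem rint_nonneg {D : Fin S.N → Cm d → ℝ} (h : ∀ i, ∀ z ∈ ball (0 : Cm d) 3, 0 ≤ D i z) :
    0 ≤ rint S D :=
  Finset.sum_nonneg fun i _ => setIntegral_nonneg (H864.K.meas_P S i) fun z hz =>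
    h i z (H864.K.P_subset3 S i hz)

theorem rint_congr {D D' : Fin S.N → Cm d → ℝ}
    (h : ∀ i, ∀ z ∈ ball (0 : Cm d) 3, D i z = D' i z) : rint S D = rint S D' :=
  Finset.sum_congr rfl fun i _ => setIntegral_congr_fun (H864.K.meas_P S i) fun z hz =>
    h i z (H864.K.P_subset3 S i hz)

theorem rint_const_mul (c : ℝ) (D : Fin S.N → Cm d → ℝ) :
    rint S (fun i z => c * D i z) = c * rint S D := by
  unfold rint
  rw [Finset.mul_sum]
  exact Finset.sum_congr rfl fun i _ => integral_const_mul _ _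

theorem rint_add {D D' : Fin S.N → Cm d → ℝ} (hD : ∀ i, ContinuousOn (D i) (ball 0 3))
    (hD' : ∀ i, ContinuousOn (D' i) (ball 0 3)) :
    rint S (fun i z => D i z + D' i z) = rint S D + rint S D' := by
  unfold rint
  rw [← Finset.sum_add_distrib]
  exact Finset.sum_congr rfl fun i _ => integral_add (H864.K.integrableOn_P S i (hD i))
    (H864.K.integrableOn_P S i (hD' i))

/-! ### Continuity -/

theorem cont_mat {M : Cm d → Matrix (Fin d) (Fin d) ℂ}
    (h : ∀ a b, ContinuousOn (fun z => M z a b) (ball 0 3)) :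
    ContinuousOn M (ball 0 3) := by
  refine continuousOn_pi.2 fun a => continuousOn_pi.2 fun b => h a b

theorem cont_detM {M : Cm d → Matrix (Fin d) (Fin d) ℂ}
    (h : ∀ a b, ContinuousOn (fun z => M z a b) (ball 0 3)) :
    ContinuousOn (fun z => (M z).det) (ball 0 3) := fun z hz =>
  (Continuous.matrix_det continuous_id).continuousAt.comp_continuousWithinAt (cont_mat h z hz)

theorem cont_w (hw : Kah S w) (i : Fin S.N) : ∀ a b, ContinuousOn (fun z => w i z a b) (ball 0 3) :=
  fun a b => (hw.smooth i a b).continuousOn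

theorem smooth_detM {M : Cm d → Matrix (Fin d) (Fin d) ℂ} {z : Cm d}
    (h : ∀ a b, ContDiffAt ℝ ∞ (fun z => M z a b) z) : ContDiffAt ℝ ∞ (fun z => (M z).det) z := by
  simp only [Matrix.det_apply]
  refine ContDiffAt.sum fun σ _ => ?_
  refine ContDiffAt.const_smul _ ?_
  exact contDiffAt_prod fun l _ => h _ _

theorem cont_nd (hw : Kah S w) (hs : ∀ i a b, ContinuousOn (fun z => s i z a b) (ball 0 3))
    (i : Fin S.N) : ContinuousOn (fun z => (nd (w i z) (s i z)).re) (ball 0 3) := by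
  intro z hz
  have h1 : ContinuousWithinAt (w i) (ball 0 3) z := cont_mat (cont_w hw i) z hz
  have h2 : ContinuousWithinAt (s i) (ball 0 3) z := cont_mat (hs i) z hz
  have h3 : (w i z).det ≠ 0 := (hw.posDef i z hz).det_pos.ne'
  have h4 : ContinuousWithinAt (fun z => (w i z)⁻¹) (ball 0 3) z := by
    have h5 : ContinuousAt (fun M : Matrix (Fin d) (Fin d) ℂ => M⁻¹) (w i z) := by
      refine continuousAt_matrix_inv _ ?_
      simpa using NormedRing.inverse_continuousAt (Units.mk0 _ h3)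
    exact h5.comp_continuousWithinAt h1
  unfold nd
  refine Complex.continuous_re.continuousAt.comp_continuousWithinAt ?_
  refine ContinuousWithinAt.mul (cont_detM (cont_w hw i) z hz) ?_
  refine (Continuous.matrix_trace continuous_id).continuousAt.comp_continuousWithinAt ?_
  refine ContinuousWithinAt.mul (ContinuousWithinAt.mul (h4.mul h2) ?_) ?_
  · exact (Continuous.matrix_transpose continuous_id).continuousAt.comp_continuousWithinAt h4
  · exact (Continuous.matrix_conjTranspose continuous_id).continuousAt.comp_continuousWithinAt h2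

/-! ### The inequality -/

variable [T2Space E] [PreconnectedSpace E]

theorem yau_ineq₀ (hd : 2 ≤ d) (hw : Kah S w)
    (hsm : ∀ i, ∀ z ∈ ball (0 : Cm d) 3, ∀ a b, ContDiffAt ℝ ∞ (fun z => s i z a b) z)
    (hs : Is2 S s) {δ : ℝ} (hδ : 0 < δ) : ∃ u : E → ℝ, Smo S u ∧ Kah S (wu S w u) ∧
      (rint S (fun i z => (wu S w u i z).det.re) = rint S (fun i z => (w i z).det.re) →
      0 < rint S (fun i z => ‖(s i z).det‖) →
      (d : ℝ) * (rint S (fun i z => (w i z).det.re) / (rint S (fun i z => ‖(s i z).det‖) +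
        δ * rint S (fun i z => (w i z).det.re))) ^ (1 - 2 / (d : ℝ)) *
        rint S (fun i z => ‖(s i z).det‖) ≤ rint S (fun i z => (nd (wu S w u i z) (s i z)).re)) := by
  have hd0 : (0 : ℝ) < d := by exact_mod_cast (by omega : 0 < d)
  have hd2 : (2 : ℝ) ≤ d := by exact_mod_cast hd
  have hexp : 0 ≤ 1 - 2 / (d : ℝ) := by
    rw [sub_nonneg, div_le_one hd0]
    exact hd2
  have hscont : ∀ i a b, ContinuousOn (fun z => s i z a b) (ball 0 3) := fun i a b z hz =>
    (hsm i z hz a b).continuousAt.continuousWithinAt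
  -- the right side
  set G : Fin S.N → Cm d → ℝ := fun i z =>
    1 / 2 * Real.log (‖(s i z).det‖ ^ 2 / (w i z).det.re ^ 2 + δ ^ 2) with hG
  have hG1 : ∀ i j, ∀ z ∈ UU S i j, G i z = G j (tt S i j z) := by
    intro i j z hz
    have h1 := norm_pos_iff.2 (jac_ne hz)
    have h2 := det_pos hw j (tt_spec hz).1
    rw [hG]
    simp only
    rw [det_s hs hz, det_w hw hz]
    congr 3
    field_simp
  have hG2 : ∀ i, ∀ z ∈ ball (0 : Cm d) 3, ContDiffAt ℝ ∞ (G i) z := by
    intro i z hz
    have h1 : ContDiffAt ℝ ∞ (fun z => ‖(s i z).det‖ ^ 2) z :=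
      (smooth_detM (hsm i z hz)).norm_sq ℝ
    have h2 : ContDiffAt ℝ ∞ (fun z => (w i z).det.re) z :=
      Complex.reCLM.contDiff.contDiffAt.comp z (smooth_detM fun a b =>
        (hw.smooth i a b).contDiffAt (isOpen_ball.mem_nhds hz))
    have h3 := det_pos hw i hz
    refine contDiffAt_const.mul (ContDiffAt.log ?_ (by positivity))
    exact (h1.div (h2.pow 2) (by positivity)).add contDiffAt_const
  obtain ⟨u, c, hu, hK, he⟩ := yauS hw (gl_smo hG1 hG2)
  refine ⟨u, hu, hK, fun hvol hI => ?_⟩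
  -- the determinant of the new metric
  set R : Fin S.N → Cm d → ℝ := fun i z =>
    Real.sqrt (‖(s i z).det‖ ^ 2 + δ ^ 2 * (w i z).det.re ^ 2) with hR
  have hdet : ∀ i, ∀ z ∈ ball (0 : Cm d) 3, (wu S w u i z).det.re = Real.exp c * R i z := by
    intro i z hz
    have h1 := he i z hz
    rw [gl_eq hG1 i hz] at h1
    have h2 := det_pos hw i hz
    have h3 := det_pos hK i hz
    have h4 : (0 : ℝ) < ‖(s i z).det‖ ^ 2 / (w i z).det.re ^ 2 + δ ^ 2 := by positivity
    have h5 : Real.log (wu S w u i z).det.re =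
        Real.log (Real.exp c * R i z) := by
      have h6 : R i z = Real.sqrt (‖(s i z).det‖ ^ 2 / (w i z).det.re ^ 2 + δ ^ 2) *
          (w i z).det.re := by
        rw [hR]
        simp only
        have h7 : ‖(s i z).det‖ ^ 2 + δ ^ 2 * (w i z).det.re ^ 2 =
            (‖(s i z).det‖ ^ 2 / (w i z).det.re ^ 2 + δ ^ 2) * (w i z).det.re ^ 2 := by
          field_simp
        rw [h7, Real.sqrt_mul h4.le, Real.sqrt_sq h2.le]
      rw [h6, Real.log_mul (Real.exp_ne_zero _) (by positivity), Real.log_exp,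
        Real.log_mul (by positivity) h2.ne', Real.log_sqrt h4.le]
      rw [hG] at h1
      simp only at h1
      linarith
    have h6 : 0 < Real.exp c * R i z := by
      have : 0 < R i z := Real.sqrt_pos.2 (by positivity)
      positivity
    exact Real.log_injOn_pos (mem_Ioi.2 h3) (mem_Ioi.2 h6) h5
  have hRge : ∀ i, ∀ z ∈ ball (0 : Cm d) 3, ‖(s i z).det‖ ≤ R i z := by
    intro i z _
    refine Real.le_sqrt_of_sq_le ?_
    have : 0 ≤ δ ^ 2 * (w i z).det.re ^ 2 := by positivity
    linarith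
  have hRle : ∀ i, ∀ z ∈ ball (0 : Cm d) 3, R i z ≤ ‖(s i z).det‖ + δ * (w i z).det.re := by
    intro i z hz
    have h2 := det_pos hw i hz
    refine Real.sqrt_le_iff.2 ⟨by positivity, ?_⟩
    have : 0 ≤ 2 * ‖(s i z).det‖ * (δ * (w i z).det.re) := by positivity
    nlinarith
  -- continuity
  have cs : ∀ i, ContinuousOn (fun z => ‖(s i z).det‖) (ball 0 3) := fun i =>
    (cont_detM (hscont i)).norm
  have cw : ∀ i, ContinuousOn (fun z => (w i z).det.re) (ball 0 3) := fun i =>
    Complex.continuous_re.comp_continuousOn (cont_detM (cont_w hw i))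
  have cR : ∀ i, ContinuousOn (R i) (ball 0 3) := fun i =>
    (((cs i).pow 2).add (continuousOn_const.mul ((cw i).pow 2))).sqrt
  set I := rint S (fun i z => ‖(s i z).det‖) with hIdef
  set V := rint S (fun i z => (w i z).det.re) with hVdef
  have hV : 0 ≤ V := rint_nonneg fun i z hz => (det_pos hw i hz).le
  -- the constant
  have h1 : V ≤ Real.exp c * (I + δ * V) := by
    have h2 : I + δ * V = rint S (fun i z => ‖(s i z).det‖ + δ * (w i z).det.re) := by
      rw [rint_add (D' := fun i z => δ * (w i z).det.re) cs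
        (fun i => continuousOn_const.mul (cw i)), rint_const_mul]
    have h3 : V = Real.exp c * rint S R := by
      rw [← hvol, rint_congr hdet, rint_const_mul]
    have h4 : rint S R ≤ I + δ * V := by
      rw [h2]
      exact rint_mono cR (fun i => (cs i).add (continuousOn_const.mul (cw i))) hRle
    calc V = Real.exp c * rint S R := h3
      _ ≤ Real.exp c * (I + δ * V) := mul_le_mul_of_nonneg_left h4 (Real.exp_pos c).le
  have h2 : V / (I + δ * V) ≤ Real.exp c := by
    rw [div_le_iff₀ (by positivity)]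
    exact h1
  have h3 : (V / (I + δ * V)) ^ (1 - 2 / (d : ℝ)) ≤ Real.exp c ^ (1 - 2 / (d : ℝ)) :=
    Real.rpow_le_rpow (by positivity) h2 hexp
  -- the lower bound
  have h4 : (d : ℝ) * Real.exp c ^ (1 - 2 / (d : ℝ)) * I ≤
      rint S (fun i z => (nd (wu S w u i z) (s i z)).re) := by
    rw [hIdef, ← rint_const_mul]
    refine rint_mono (fun i => continuousOn_const.mul (cs i)) (cont_nd hK hscont) ?_
    intro i z hz
    refine nd_ge hd (hK.posDef i z hz) (Real.exp_pos c) ?_
    rw [hdet i z hz]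
    exact mul_le_mul_of_nonneg_left (hRge i z hz) (Real.exp_pos c).le
  refine le_trans ?_ h4
  refine mul_le_mul_of_nonneg_right ?_ hI.le
  exact mul_le_mul_of_nonneg_left h3 hd0.le

/-- **The inequality**: `d^d (∫ |det σ|)^2 V^(d-2) ≤ (∫ |σ|^2 ω^d)^d`, if the integral of `ω^d` and of
`σ ∧ conj σ ∧ ω^(d-2)` do not change for `ω + i∂∂̄u`. -/
theorem yau_ineq (hd : 2 ≤ d) (hw : Kah S w)
    (hsm : ∀ i, ∀ z ∈ ball (0 : Cm d) 3, ∀ a b, ContDiffAt ℝ ∞ (fun z => s i z a b) z)
    (hs : Is2 S s)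
    (hvol : ∀ u : E → ℝ, Smo S u → Kah S (wu S w u) →
      rint S (fun i z => (wu S w u i z).det.re) = rint S (fun i z => (w i z).det.re))
    (hinv : ∀ u : E → ℝ, Smo S u → Kah S (wu S w u) →
      rint S (fun i z => (nd (wu S w u i z) (s i z)).re) =
        rint S (fun i z => (nd (w i z) (s i z)).re)) :
    (d : ℝ) ^ d * rint S (fun i z => (w i z).det.re) ^ (d - 2) *
      rint S (fun i z => ‖(s i z).det‖) ^ 2 ≤ rint S (fun i z => (nd (w i z) (s i z)).re) ^ d := by
  have hd0 : (0 : ℝ) < d := by exact_mod_cast (by omega : 0 < d)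
  set I := rint S (fun i z => ‖(s i z).det‖) with hIdef
  set V := rint S (fun i z => (w i z).det.re) with hVdef
  set β := rint S (fun i z => (nd (w i z) (s i z)).re) with hβdef
  have hV : 0 ≤ V := rint_nonneg fun i z hz => (det_pos hw i hz).le
  have hβ : 0 ≤ β := rint_nonneg fun i z hz => nd_nonneg (hw.posDef i z hz)
  have hI0 : 0 ≤ I := rint_nonneg fun i z _ => norm_nonneg _
  rcases eq_or_lt_of_le hI0 with hI | hI
  · rw [← hI]
    have : (0 : ℝ) ^ 2 = 0 := by norm_num
    rw [this, mul_zero]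
    positivity
  have key : ∀ δ : ℝ, 0 < δ → (d : ℝ) ^ d * V ^ (d - 2) * I ^ d ≤ β ^ d * (I + δ * V) ^ (d - 2) := by
    intro δ hδ
    obtain ⟨u, hu, hK, h1⟩ := yau_ineq₀ hd hw hsm hs hδ
    have h2 := h1 (hvol u hu hK) hI
    rw [hinv u hu hK] at h2
    have h3 : 0 < I + δ * V := by positivity
    have h4 : 0 ≤ V / (I + δ * V) := by positivity
    have h5 := pow_le_pow_left₀ (by positivity) h2 d
    have h6 : ((V / (I + δ * V)) ^ (1 - 2 / (d : ℝ))) ^ d = (V / (I + δ * V)) ^ (d - 2) := by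
      rw [← Real.rpow_natCast, ← Real.rpow_mul h4]
      have h7 : (1 - 2 / (d : ℝ)) * (d : ℝ) = ((d - 2 : ℕ) : ℝ) := by
        rw [Nat.cast_sub hd]
        field_simp
        norm_num
      rw [h7, Real.rpow_natCast]
    rw [mul_pow, mul_pow, h6, div_pow] at h5
    have h8 : 0 < (I + δ * V) ^ (d - 2) := by positivity
    have h9 : (d : ℝ) ^ d * (V ^ (d - 2) / (I + δ * V) ^ (d - 2)) * I ^ d =
        (d : ℝ) ^ d * V ^ (d - 2) * I ^ d / (I + δ * V) ^ (d - 2) := by ring
    rw [h9, div_le_iff₀ h8] at h5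
    exact h5
  have hlim : Tendsto (fun δ : ℝ => β ^ d * (I + δ * V) ^ (d - 2)) (𝓝[>] 0)
      (𝓝 (β ^ d * (I + 0 * V) ^ (d - 2))) := by
    refine Tendsto.mono_left ?_ nhdsWithin_le_nhds
    exact (by fun_prop : Continuous fun δ : ℝ => β ^ d * (I + δ * V) ^ (d - 2)).tendsto 0
  have h1 := ge_of_tendsto hlim (eventually_mem_nhdsWithin.mono fun δ hδ => key δ hδ)
  rw [zero_mul, add_zero] at h1
  have h2 : I ^ d = I ^ 2 * I ^ (d - 2) := by
    rw [← pow_add]
    congr 1
    omega
  rw [h2, ← mul_assoc] at h1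
  exact le_of_mul_le_mul_right h1 (by positivity)

end Vale.Agent.P281.H842.HK
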