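import Vale.Agent.P281.H842.TS.Tt
import Vale.Agent.P272.K.Iface

/-!
# P281, project T-HK (helper842): a compact complex manifold given by sheets, as a charted space
-/

open Set Filter Metric MeasureTheory Vale.Agent.P272.K
open scoped Topology ContDiff ComplexConjugate ComplexOrder Manifold

set_option linter.unusedSectionVars false

noncomputable section

namespace Vale.Agent.P281.H842.HK

open Vale.Agent.P281.H64.TK Vale.Agent.P281.H842.TS

variable {d : ℕ} {E Γ : Type} [TopologicalSpace E] [Group Γ] [Subsingleton Γ] [MulAction Γ E]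

theorem sig_inj (S : Sheets d E Γ) (i : Fin S.N) : InjOn (S.σ i) (ball 0 3) :=
  fun z hz w hw h => (S.inj i z hz w hw 1 (by rw [one_smul, h])).2

theorem sig_cont (S : Sheets d E Γ) (i : Fin S.N) {z : Cm d} (hz : z ∈ ball (0 : Cm d) 3) :
    ContinuousAt (S.σ i) z := (S.map_nhds i z hz).le

/-- the sheet number `i`, as a local homeomorphism -/
def ph (S : Sheets d E Γ) (i : Fin S.N) : OpenPartialHomeomorph (Cm d) E :=
  OpenPartialHomeomorph.ofContinuousOpenRestrict
    (InjOn.toPartialEquiv (S.σ i) (ball 0 3) (sig_inj S i))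
    (fun z hz => (sig_cont S i hz).continuousWithinAt)
    (by
      rw [IsOpenMap]
      intro U hU
      obtain ⟨V, hV, rfl⟩ := isOpen_induced_iff.1 hU
      have h1 : ((ball (0 : Cm d) 3).domRestrict fun z => S.σ i z) '' (Subtype.val ⁻¹' V) =
          (fun z => S.σ i z) '' (V ∩ ball 0 3) := by
        ext e
        constructor
        · rintro ⟨⟨z, hz⟩, hzV, rfl⟩
          exact ⟨z, ⟨hzV, hz⟩, rfl⟩
        · rintro ⟨z, ⟨hzV, hz⟩, rfl⟩
          exact ⟨⟨z, hz⟩, hzV, rfl⟩
      have h2 : IsOpen ((fun z => S.σ i z) '' (V ∩ ball 0 3)) := by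
        rw [isOpen_iff_mem_nhds]
        rintro _ ⟨z, hz, rfl⟩
        have h3 := S.map_nhds i z hz.2
        show S.σ i '' (V ∩ ball 0 3) ∈ 𝓝 (S.σ i z)
        rw [← h3]
        exact image_mem_map ((hV.inter isOpen_ball).mem_nhds hz)
      rw [← h1] at h2
      exact h2)
    isOpen_ball

theorem ph_coe (S : Sheets d E Γ) (i : Fin S.N) (z : Cm d) : ph S i z = S.σ i z := rfl

theorem ph_source (S : Sheets d E Γ) (i : Fin S.N) : (ph S i).source = ball 0 3 := rfl

theorem ph_target (S : Sheets d E Γ) (i : Fin S.N) : (ph S i).target = S.σ i '' ball 0 3 := rfl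

theorem ph_symm (S : Sheets d E Γ) (i : Fin S.N) {z : Cm d} (hz : z ∈ ball (0 : Cm d) 3) :
    (ph S i).symm (S.σ i z) = z := (ph S i).left_inv hz

theorem exists_ph (S : Sheets d E Γ) (e : E) : ∃ i : Fin S.N, e ∈ (ph S i).target := by
  obtain ⟨γ, i, z, hz, rfl⟩ := S.cover e
  exact ⟨i, z, mem_ball_zero_iff.2 (by linarith), (sm1 γ _).symm⟩

/-- `E` is a complex manifold. -/
@[implicit_reducible] def charted (S : Sheets d E Γ) : ChartedSpace (Cm d) E where
  atlas := {φ | ∃ i, φ = (ph S i).symm}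
  chartAt e := (ph S (exists_ph S e).choose).symm
  mem_chart_source e := (exists_ph S e).choose_spec
  chart_mem_atlas e := ⟨_, rfl⟩

theorem isManifold (S : Sheets d E Γ) :
    @IsManifold ℂ _ (Cm d) _ _ (Cm d) _ 𝓘(ℂ, Cm d) ω E _ (charted S) := by
  letI := charted S
  refine isManifold_of_contDiffOn 𝓘(ℂ, Cm d) ω E ?_
  rintro _ _ ⟨i, rfl⟩ ⟨j, rfl⟩
  intro z hz
  have hz1 : z ∈ ball (0 : Cm d) 3 ∧ S.σ i z ∈ S.σ j '' ball 0 3 := by
    have h1 := hz.1
    simp only [mem_preimage] at h1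
    have h2 : z ∈ ((ph S i).symm.symm.trans (ph S j).symm).source := h1
    rw [OpenPartialHomeomorph.trans_source] at h2
    exact ⟨h2.1, h2.2⟩
  obtain ⟨w, hw, he⟩ := hz1.2
  have hU : z ∈ UU S i j := mem_UU hz1.1 hw he.symm
  have h3 : (𝓘(ℂ, Cm d) ∘ ((ph S i).symm.symm.trans (ph S j).symm) ∘ 𝓘(ℂ, Cm d).symm) =ᶠ[𝓝 z]
      tt S i j := by
    filter_upwards [isOpen_UU.mem_nhds hU] with u hu
    show (ph S j).symm (S.σ i u) = tt S i j u
    rw [(tt_spec hu).2, ph_symm S j (tt_spec hu).1]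
  exact ((tt_an hU).contDiffAt.congr_of_eventuallyEq h3).contDiffWithinAt

theorem compactSpace (S : Sheets d E Γ) : CompactSpace E := by
  refine ⟨?_⟩
  have h1 : (univ : Set E) = ⋃ i, S.σ i '' closedBall 0 1 := by
    ext e
    simp only [mem_univ, mem_iUnion, true_iff]
    obtain ⟨γ, i, z, hz, rfl⟩ := S.cover e
    exact ⟨i, z, mem_closedBall_zero_iff.2 hz.le, (sm1 γ _).symm⟩
  rw [h1]
  refine isCompact_iUnion fun i => (isCompact_closedBall 0 1).image_of_continuousOn ?_
  intro z hz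
  exact (sig_cont S i (closedBall_subset_ball (by norm_num) hz)).continuousWithinAt

/-- the charts of the atlas at a point -/
theorem at_iff (S : Sheets d E Γ) (e : Chart d E) (x : E) :
    @At d E _ (charted S) e x ↔ ∃ i, e = (ph S i).symm ∧ ∃ z ∈ ball (0 : Cm d) 3, S.σ i z = x := by
  constructor
  · rintro ⟨⟨i, rfl⟩, hx⟩
    exact ⟨i, rfl, hx⟩
  · rintro ⟨i, rfl, z, hz, rfl⟩
    exact ⟨⟨i, rfl⟩, z, hz, rfl⟩

open Classical in
/-- the metric, in the charts -/
def wC (S : Sheets d E Γ) (w : Fin S.N → Cm d → Matrix (Fin d) (Fin d) ℂ) (e : Chart d E)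
    (z : Cm d) : Matrix (Fin d) (Fin d) ℂ :=
  if h : ∃ i, e = (ph S i).symm then w h.choose z else 1

theorem jac_id' (z : Cm d) : jac (fun u : Cm d => u) z = 1 := Vale.Agent.P281.H864.K.jac_id z

theorem wC_eq {S : Sheets d E Γ} {w : Fin S.N → Cm d → Matrix (Fin d) (Fin d) ℂ} (hw : Kah S w)
    (i : Fin S.N) {z : Cm d} (hz : z ∈ ball (0 : Cm d) 3) : wC S w (ph S i).symm z = w i z := by
  have h : ∃ j, (ph S i).symm = (ph S j).symm := ⟨i, rfl⟩
  unfold wC
  rw [dif_pos h]
  have h1 : ph S i = ph S h.choose := by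
    have h2 := congrArg OpenPartialHomeomorph.symm h.choose_spec
    rwa [OpenPartialHomeomorph.symm_symm, OpenPartialHomeomorph.symm_symm] at h2
  have h3 : ∀ u, S.σ i u = S.σ h.choose u := fun u => by
    have h4 := congrArg (fun e : OpenPartialHomeomorph (Cm d) E => e u) h1
    exact h4
  have h5 := hw.change h.choose i z hz z hz 1 (fun u => u) analyticAt_id rfl
    (Eventually.of_forall fun u => by rw [one_smul, h3])
  rw [h5, jac_id']
  simp

theorem jacM_eq (S : Sheets d E Γ) {i j : Fin S.N} {z : Cm d} (h : z ∈ UU S i j) :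
    jacM (ph S i).symm (ph S j).symm (S.σ i z) = jac (tt S i j) z := by
  ext l k
  show dz k (fun u => (ph S j).symm ((ph S i).symm.symm u) l) ((ph S i).symm (S.σ i z)) = _
  rw [ph_symm S i h.1, jac_eq_dz (tt_an h).differentiableAt]
  refine INT.dz_congr ?_
  filter_upwards [isOpen_UU.mem_nhds h] with u hu
  show (ph S j).symm (S.σ i u) l = tt S i j u l
  rw [(tt_spec hu).2, ph_symm S j (tt_spec hu).1]

theorem isKahler {S : Sheets d E Γ} {w : Fin S.N → Cm d → Matrix (Fin d) (Fin d) ℂ}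
    (hw : Kah S w) : @IsKahler d E _ (charted S) (wC S w) := by
  letI := charted S
  have hev : ∀ (i : Fin S.N) {z : Cm d}, z ∈ ball (0 : Cm d) 3 →
      ∀ᶠ u in 𝓝 z, wC S w (ph S i).symm u = w i u := fun i z hz =>
    mem_of_superset (isOpen_ball.mem_nhds hz) fun u hu => wC_eq hw i hu
  refine { smooth := ?_, posDef := ?_, change := ?_, closed := ?_ }
  · intro e x hx a b
    obtain ⟨i, rfl, z, hz, rfl⟩ := (at_iff S e x).1 hx
    rw [ph_symm S i hz]
    exact ((hw.smooth i a b).contDiffAt (isOpen_ball.mem_nhds hz)).congr_of_eventuallyEq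
      ((hev i hz).mono fun u hu => by simp only [hu])
  · intro e x hx
    obtain ⟨i, rfl, z, hz, rfl⟩ := (at_iff S e x).1 hx
    rw [ph_symm S i hz, wC_eq hw i hz]
    exact hw.posDef i z hz
  · intro e e' x hx hx'
    obtain ⟨i, rfl, z, hz, rfl⟩ := (at_iff S e x).1 hx
    obtain ⟨j, rfl, z', hz', he⟩ := (at_iff S e' _).1 hx'
    have hU : z ∈ UU S i j := mem_UU hz hz' he.symm
    have h1 : (ph S j).symm (S.σ i z) = tt S i j z := by
      rw [(tt_spec hU).2, ph_symm S j (tt_spec hU).1]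
    rw [jacM_eq S hU, ph_symm S i hz, h1, wC_eq hw i hz, wC_eq hw j (tt_spec hU).1]
    exact hw.change i j z hz _ (tt_spec hU).1 1 _ (tt_an hU) rfl
      ((tt_sig hU).mono fun u hu => by rw [one_smul, hu])
  · intro e x hx a b c
    obtain ⟨i, rfl, z, hz, rfl⟩ := (at_iff S e x).1 hx
    rw [ph_symm S i hz]
    have h1 : ∀ a b c, dz c (fun z => wC S w (ph S i).symm z a b) z =
        dz c (fun z => w i z a b) z := fun a b c =>
      INT.dz_congr ((hev i hz).mono fun u hu => by simp only [hu])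
    rw [h1, h1]
    exact hw.closed i z hz a b c

end Vale.Agent.P281.H842.HK
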