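import Vale.Agent.P281.H842.HK.Man
import Vale.Agent.P281.H842.HK.Alg
import Vale.Agent.P299.H835.Yau

/-!
# P281, project T-HK (helper842): the Calabi-Yau theorem on sheets, and the inequality
`(∫ |det σ|)^2 (∫ ω^d)^(d-2) ≤ C (∫ σ ∧ conj σ ∧ ω^(d-2))^d`
-/

open Set Filter Metric MeasureTheory Vale.Agent.P272.K
open scoped Topology ContDiff ComplexConjugate ComplexOrder Manifold Matrix

set_option linter.unusedSectionVars false
set_option linter.style.haveILetI false

noncomputable section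

namespace Vale.Agent.P281.H842.HK

open Vale.Agent.P281.H64.TK Vale.Agent.P281.H842.TS

variable {d : ℕ} {E Γ : Type} [TopologicalSpace E] [Group Γ] [Subsingleton Γ] [MulAction Γ E]
  {S : Sheets d E Γ} {w : Fin S.N → Cm d → Matrix (Fin d) (Fin d) ℂ}

/-- `w + i∂∂̄u` -/
def wu (S : Sheets d E Γ) (w : Fin S.N → Cm d → Matrix (Fin d) (Fin d) ℂ) (u : E → ℝ)
    (i : Fin S.N) (z : Cm d) : Matrix (Fin d) (Fin d) ℂ := w i z + cHess (fun y => u (S.σ i y)) z

/-- `u` is smooth -/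
def Smo (S : Sheets d E Γ) (u : E → ℝ) : Prop :=
  ∀ i, ∀ z ∈ ball (0 : Cm d) 3, ContDiffAt ℝ ∞ (fun y => u (S.σ i y)) z

/-- from a Kähler metric in the charts to a Kähler metric in the sheets -/
theorem kah_of {χ : Chart d E → Cm d → Matrix (Fin d) (Fin d) ℂ}
    (hχ : @IsKahler d E _ (charted S) χ) {w' : Fin S.N → Cm d → Matrix (Fin d) (Fin d) ℂ}
    (h : ∀ i, ∀ z ∈ ball (0 : Cm d) 3, w' i z = χ (ph S i).symm z) : Kah S w' := by
  letI := charted S
  have hat : ∀ (i : Fin S.N) {z : Cm d}, z ∈ ball (0 : Cm d) 3 → At (ph S i).symm (S.σ i z) :=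
    fun i z hz => (at_iff S _ _).2 ⟨i, rfl, z, hz, rfl⟩
  have hev : ∀ (i : Fin S.N) {z : Cm d}, z ∈ ball (0 : Cm d) 3 →
      ∀ᶠ u in 𝓝 z, w' i u = χ (ph S i).symm u := fun i z hz =>
    mem_of_superset (isOpen_ball.mem_nhds hz) fun u hu => h i u hu
  refine ⟨fun i a b z hz => ContDiffAt.contDiffWithinAt ?_, fun i z hz => ?_,
    fun i z hz a b c => ?_, fun i j z hz z' hz' γ θ hθ hθz hθe => ?_⟩
  · have h1 := hχ.smooth _ _ (hat i hz) a b
    rw [ph_symm S i hz] at h1
    exact h1.congr_of_eventuallyEq ((hev i hz).mono fun u hu => by simp only [hu])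
  · have h1 := hχ.posDef _ _ (hat i hz)
    rw [ph_symm S i hz] at h1
    rw [h i z hz]
    exact h1
  · have h1 := hχ.closed _ _ (hat i hz) a b c
    rw [ph_symm S i hz] at h1
    have h2 : ∀ a b c, dz c (fun z => w' i z a b) z = dz c (fun z => χ (ph S i).symm z a b) z :=
      fun a b c => INT.dz_congr ((hev i hz).mono fun u hu => by simp only [hu])
    rw [h2, h2]
    exact h1
  · have hθe' : ∀ᶠ u in 𝓝 z, S.σ i u = S.σ j (θ u) := hθe.mono fun u hu => by rw [hu, sm1]
    have hU : z ∈ UU S i j := mem_UU hz hz' (by rw [hθe'.self_of_nhds, hθz])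
    have h3 : tt S i j =ᶠ[𝓝 z] θ := tt_loc hθ.continuousAt (by rw [hθz]; exact hz') hθe'
    have h4 : S.σ j (tt S i j z) = S.σ i z := (tt_spec hU).2.symm
    have h5 : At (ph S j).symm (S.σ i z) := by
      have := hat j (tt_spec hU).1
      rwa [h4] at this
    have h1 := hχ.change _ _ _ (hat i hz) h5
    rw [jacM_eq S hU, ph_symm S i hz, ← h4, ph_symm S j (tt_spec hU).1,
      Vale.Agent.P281.H864.K.jac_congr h3, h3.self_of_nhds, hθz] at h1
    rw [h i z hz, h j z' hz']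
    exact h1

variable [T2Space E] [PreconnectedSpace E]

/-- **The Calabi-Yau theorem** on sheets -/
theorem yauS (hw : Kah S w) {F : E → ℝ} (hF : Smo S F) : ∃ (u : E → ℝ) (c : ℝ), Smo S u ∧
    Kah S (wu S w u) ∧ ∀ i, ∀ z ∈ ball (0 : Cm d) 3,
      Real.log (wu S w u i z).det.re - Real.log (w i z).det.re = F (S.σ i z) + c := by
  letI := charted S
  haveI := isManifold S
  haveI := compactSpace S
  have hF' : SmoothFn (n := d) F := by
    intro e x hx
    obtain ⟨i, rfl, z, hz, rfl⟩ := (at_iff S e x).1 hx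
    rw [ph_symm S i hz]
    exact hF i z hz
  obtain ⟨u, c, hu, hp, he⟩ := (Vale.Agent.P299.H835.yau (n := d) (X := E)) (wC S w)
    (isKahler hw) F hF'
  have hK : IsKahler (addH (wC S w) u) :=
    Vale.Agent.P299.H835.isKahler_addH (isKahler hw) hu hp
  have h1 : ∀ i, ∀ z ∈ ball (0 : Cm d) 3, wu S w u i z = addH (wC S w) u (ph S i).symm z := by
    intro i z hz
    unfold addH wu
    rw [wC_eq hw i hz]
    rfl
  have hat : ∀ (i : Fin S.N) {z : Cm d}, z ∈ ball (0 : Cm d) 3 → At (ph S i).symm (S.σ i z) :=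
    fun i z hz => (at_iff S _ _).2 ⟨i, rfl, z, hz, rfl⟩
  refine ⟨u, c, fun i z hz => ?_, kah_of hK h1, fun i z hz => ?_⟩
  · have h2 := hu _ _ (hat i hz)
    rw [ph_symm S i hz] at h2
    exact h2
  · have h2 := he _ _ (hat i hz)
    rw [ph_symm S i hz, wC_eq hw i hz] at h2
    rw [h1 i z hz]
    exact h2

end Vale.Agent.P281.H842.HK
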